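import Vale.Agent.P011Z.Defs

/-!
The equations of the group as one strictly differentiable map, and its derivative at one.
-/

open Matrix Topology Filter

namespace Vale.Agent.P011Z

namespace Opn

variable {n : Type} [Fintype n] [DecidableEq n] (S : Sys n) (F : Type)
  [NontriviallyNormedField F]

/-- The tensor as a continuous multilinear form. -/
noncomputable def evC {a : ℕ} (t : (Fin a → n) → ℚ) :
    ContinuousMultilinearMap F (fun _ : Fin a => n → F) F :=
  { ev t F with
    cont := by
      have e : (fun x : Fin a → n → F => ev t F x) =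
          fun x => ∑ j : Fin a → n, (t j : F) * ∏ r, x r (j r) := funext fun x => ev_apply t F x
      change Continuous fun x : Fin a → n → F => ev t F x
      rw [e]
      fun_prop }

omit [DecidableEq n] in
theorem evC_apply {a : ℕ} (t : (Fin a → n) → ℚ) (x : Fin a → n → F) :
    evC F t x = ev t F x := rfl

/-- The columns with the given numbers. -/
noncomputable def col {a : ℕ} (i : Fin a → n) : (n → n → F) →L[F] (Fin a → n → F) :=
  ContinuousLinearMap.pi fun r => ContinuousLinearMap.pi fun k =>
    (ContinuousLinearMap.proj (i r) : (n → F) →L[F] F).comp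
      (ContinuousLinearMap.proj k : (n → n → F) →L[F] n → F)

omit [Fintype n] [DecidableEq n] in
theorem col_apply {a : ℕ} (i : Fin a → n) (y : n → n → F) (r : Fin a) (k : n) :
    col F i y r k = y k (i r) := rfl

omit [DecidableEq n] in
theorem norm_col_le {a : ℕ} (i : Fin a → n) (y : n → n → F) (r : Fin a) :
    ‖col F i y r‖ ≤ ‖y‖ :=
  (pi_norm_le_iff_of_nonneg (norm_nonneg _)).2 fun k =>
    (norm_le_pi_norm (y k) (i r)).trans (norm_le_pi_norm y k)

/-- The identity matrix as an array. -/
def one : n → n → F := fun i j => (1 : Matrix n n F) i j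

omit [Fintype n] in
theorem of_one : Matrix.of (one F : n → n → F) = 1 := rfl

theorem norm_one_le : ‖(one F : n → n → F)‖ ≤ 1 := by
  refine (pi_norm_le_iff_of_nonneg zero_le_one).2 fun i =>
    (pi_norm_le_iff_of_nonneg zero_le_one).2 fun j => ?_
  rw [one, Matrix.one_apply]
  split_ifs <;> simp

omit [Fintype n] in
theorem col_one {a : ℕ} (i : Fin a → n) (r : Fin a) :
    col F i (one F) r = Pi.single (i r) 1 := by
  funext k
  rw [col_apply, one, Matrix.one_apply, Pi.single_apply]

/-- The set of the equations. -/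
abbrev Idx : Type := Σ τ : S.fin.toFinset, (Fin τ.1.1 → n)

/-- The left hand sides of the equations of the group. -/
noncomputable def eqn (y : n → n → F) : Idx S → F := fun p => evC F p.1.1.2 (col F p.2 y)

/-- The left hand sides of the equations of the Lie algebra. -/
noncomputable def lin : (n → n → F) →L[F] (Idx S → F) :=
  ContinuousLinearMap.pi fun p =>
    ((evC F p.1.1.2).linearDeriv (col F p.2 (one F))).comp (col F p.2)

theorem lin_apply (X : n → n → F) (p : Idx S) : lin S F X p =
    ∑ r, ev p.1.1.2 F (Function.update (col F p.2 (one F)) r (col F p.2 X r)) := by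
  change (evC F p.1.1.2).linearDeriv (col F p.2 (one F)) (col F p.2 X) = _
  rw [ContinuousMultilinearMap.linearDeriv_apply]
  rfl

theorem hasStrictFDerivAt_eqn : HasStrictFDerivAt (eqn S F) (lin S F) (one F) := by
  refine hasStrictFDerivAt_pi.2 fun p => ?_
  exact ((evC F p.1.1.2).hasStrictFDerivAt (col F p.2 (one F))).comp (one F)
    (col F p.2).hasStrictFDerivAt

variable {S F}

theorem mem_mon_iff_eqn {y : n → n → F} :
    Matrix.of y ∈ S.mon F ↔ eqn S F y = eqn S F (one F) := by
  have h1 : ∀ (z : n → n → F) (τ : Tn n) (i : Fin τ.1 → n), evC F τ.2 (col F i z) =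
      ∑ j : Fin τ.1 → n, (τ.2 j : F) * ∏ r, (Matrix.of z) (j r) (i r) := fun z τ i => by
    rw [evC_apply, ev_apply]
    rfl
  have h2 := Sys.mem_mon_iff.1 (S.mon F).one_mem
  rw [Sys.mem_mon_iff]
  constructor
  · intro h
    funext p
    have hp := S.fin.mem_toFinset.1 p.1.2
    rw [eqn, eqn, h1, h1, h _ hp, of_one, h2 _ hp]
  · intro h τ hτ i
    have h3 := congrFun h ⟨⟨τ, S.fin.mem_toFinset.2 hτ⟩, i⟩
    rw [eqn, eqn, h1, h1, of_one, h2 _ hτ] at h3
    exact h3

theorem mem_lie_iff_lin {X : n → n → F} : Matrix.of X ∈ S.lie F ↔ lin S F X = 0 := by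
  have h1 : ∀ {a : ℕ} (i : Fin a → n) (r : Fin a),
      col F i X r = Matrix.of X *ᵥ col F i (one F) r := fun i r => by
    funext k
    rw [col_one, col_apply]
    simp
  constructor
  · intro h
    funext p
    rw [lin_apply]
    simp only [h1]
    exact h _ (S.fin.mem_toFinset.1 p.1.2) _
  · intro h τ hτ x
    have h2 : (∑ r : Fin τ.1, (ev τ.2 F).compLinearMap
        (Function.update (fun _ => LinearMap.id) r (Matrix.of X).mulVecLin)) = 0 := by
      refine Module.Basis.ext_multilinear (fun _ => Pi.basisFun F n) fun i => ?_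
      have h3 := congrFun h ⟨⟨τ, S.fin.mem_toFinset.2 hτ⟩, i⟩
      rw [lin_apply] at h3
      simp only [h1] at h3
      rw [_root_.sum_apply, _root_.zero_apply]
      refine Eq.trans (Finset.sum_congr rfl fun r _ => ?_) h3
      rw [MultilinearMap.compLinearMap_apply]
      refine congrArg _ (funext fun s => ?_)
      by_cases hs : s = r
      · subst hs
        simp [col_one]
      · simp [hs, col_one]
    have h4 := congrArg (fun m => m x) h2
    simp only [_root_.sum_apply, _root_.zero_apply] at h4
    refine Eq.trans (Finset.sum_congr rfl fun r _ => ?_) h4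
    rw [MultilinearMap.compLinearMap_apply]
    refine congrArg _ (funext fun s => ?_)
    by_cases hs : s = r
    · subst hs
      simp
    · simp [hs]

variable (S F)

/-- The remainder is of the second order. -/
theorem exists_second : ∃ C : ℝ, 0 < C ∧ ∀ y : n → n → F, ‖y‖ ≤ 1 →
    ‖eqn S F (one F + y) - eqn S F (one F) - lin S F y‖ ≤ C * ‖y‖ ^ 2 := by
  have h1 : ∀ p : Idx S, ∃ C : ℝ, 0 ≤ C ∧ ∀ y : n → n → F, ‖y‖ ≤ 1 →
      ‖(eqn S F (one F + y) - eqn S F (one F) - lin S F y) p‖ ≤ C * ‖y‖ ^ 2 := by
    intro p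
    refine ⟨∑ _s : Finset (Fin p.1.1.1) with 2 ≤ _s.card, ‖evC F p.1.1.2‖,
      Finset.sum_nonneg fun _ _ => norm_nonneg _, fun y hy => ?_⟩
    have h2 := (ev p.1.1.2 F).map_add_eq_map_add_linearDeriv_add (col F p.2 (one F))
      (col F p.2 y)
    rw [MultilinearMap.linearDeriv_apply] at h2
    have h3 : (eqn S F (one F + y) - eqn S F (one F) - lin S F y) p =
        ∑ s : Finset (Fin p.1.1.1) with 2 ≤ s.card,
          ev p.1.1.2 F (s.piecewise (col F p.2 y) (col F p.2 (one F))) := by
      rw [Pi.sub_apply, Pi.sub_apply, lin_apply, eqn, eqn, evC_apply, evC_apply, map_add, h2]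
      ring
    rw [h3, Finset.sum_mul]
    refine norm_sum_le_of_le _ fun s hs => ?_
    rw [← evC_apply]
    refine ((evC F p.1.1.2).le_opNorm _).trans (mul_le_mul_of_nonneg_left ?_ (norm_nonneg _))
    have h4 : ∏ r, ‖s.piecewise (col F p.2 y) (col F p.2 (one F)) r‖ ≤
        ∏ r, s.piecewise (fun _ => ‖y‖) (fun _ => 1) r := by
      refine Finset.prod_le_prod (fun _ _ => norm_nonneg _) fun r _ => ?_
      by_cases hr : r ∈ s
      · rw [s.piecewise_eq_of_mem _ _ hr, s.piecewise_eq_of_mem _ _ hr]
        exact norm_col_le F _ _ _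
      · rw [s.piecewise_eq_of_notMem _ _ hr, s.piecewise_eq_of_notMem _ _ hr]
        exact (norm_col_le F _ _ _).trans (norm_one_le F)
    refine h4.trans ?_
    rw [Finset.prod_piecewise, Finset.prod_const_one, mul_one, Finset.prod_const,
      Finset.univ_inter]
    exact pow_le_pow_of_le_one (norm_nonneg _) hy (Finset.mem_filter.1 hs).2
  choose C hC0 hC using h1
  have h5 : 0 ≤ ∑ p, C p := Finset.sum_nonneg fun p _ => hC0 p
  refine ⟨∑ p, C p + 1, by linarith, fun y hy => ?_⟩
  refine (pi_norm_le_iff_of_nonneg (by positivity)).2 fun p => (hC p y hy).trans ?_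
  refine mul_le_mul_of_nonneg_right ?_ (by positivity)
  have h6 := Finset.single_le_sum (fun q (_ : q ∈ Finset.univ) => hC0 q) (Finset.mem_univ p)
  linarith

/-- A projection onto the kernel of a linear map of finite dimensional spaces. -/
theorem exists_proj [CompleteSpace F] {E G : Type} [NormedAddCommGroup E] [NormedSpace F E]
    [NormedAddCommGroup G] [NormedSpace F G] [FiniteDimensional F E] (L : E →L[F] G) :
    ∃ P : E →L[F] E, ∃ C : ℝ, 0 < C ∧ (∀ y, L (P y) = 0) ∧ ∀ y, ‖y - P y‖ ≤ C * ‖L y‖ := by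
  obtain ⟨σ, hσ⟩ := (L : E →ₗ[F] G).rangeRestrict.exists_rightInverse_of_surjective
    (LinearMap.range_rangeRestrict _)
  let σ' := LinearMap.toContinuousLinearMap σ
  let Q := LinearMap.toContinuousLinearMap (σ.comp (L : E →ₗ[F] G).rangeRestrict)
  refine ⟨ContinuousLinearMap.id F E - Q, ‖σ'‖ + 1, by positivity, fun y => ?_, fun y => ?_⟩
  · have h1 := congrArg Subtype.val (LinearMap.congr_fun hσ ((L : E →ₗ[F] G).rangeRestrict y))
    change L (y - Q y) = 0
    rw [map_sub, sub_eq_zero]
    exact h1.symm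
  · change ‖y - (y - Q y)‖ ≤ _
    rw [sub_sub_cancel]
    have h1 : ‖Q y‖ ≤ ‖σ'‖ * ‖L y‖ := σ'.le_opNorm ((L : E →ₗ[F] G).rangeRestrict y)
    have h2 := norm_nonneg (L y)
    nlinarith

end Opn

end Vale.Agent.P011Z
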