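import Vale.Agent.P011Z.Defs

/-!
The derivative at the origin of a product of matrix valued maps.
-/

open Matrix Topology Filter

namespace Vale.Agent.P011Z

namespace Opn

variable {n : Type} [Fintype n] [DecidableEq n] {F : Type} [NontriviallyNormedField F]
  {E : Type} [NormedAddCommGroup E] [NormedSpace F E]

theorem strict_mul {f g : E → n → n → F} {f' g' : E →L[F] n → n → F}
    (hf : HasStrictFDerivAt f f' 0) (hg : HasStrictFDerivAt g g' 0)
    (hf0 : Matrix.of (f 0) = 1) (hg0 : Matrix.of (g 0) = 1) :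
    HasStrictFDerivAt (fun x => Matrix.of.symm (Matrix.of (f x) * Matrix.of (g x))) (f' + g') 0 := by
  refine hasStrictFDerivAt_pi'.2 fun i => hasStrictFDerivAt_pi'.2 fun j => ?_
  have h1 := fun k => ((hasStrictFDerivAt_pi'.1 (hasStrictFDerivAt_pi'.1 hf i) k).mul
    (hasStrictFDerivAt_pi'.1 (hasStrictFDerivAt_pi'.1 hg k) j))
  have h2 := HasStrictFDerivAt.fun_sum (u := Finset.univ) fun k _ => h1 k
  have hf1 : ∀ k, f 0 i k = (1 : Matrix n n F) i k := fun k => by rw [← hf0]; rfl
  have hg1 : ∀ k, g 0 k j = (1 : Matrix n n F) k j := fun k => by rw [← hg0]; rfl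
  refine (h2.congr_fderiv ?_).congr_of_eventuallyEq (Eventually.of_forall fun x => ?_)
  · ext x
    have h3 : ∑ k, ((1 : Matrix n n F) i k * g' x k j + (1 : Matrix n n F) k j * f' x i k) =
        f' x i j + g' x i j := by
      simp [Matrix.one_apply, Finset.sum_add_distrib, add_comm]
    simpa [hf1, hg1] using h3
  · simp [Matrix.mul_apply]

theorem strict_prod : ∀ {d : ℕ} {f : Fin d → E → n → n → F} {f' : Fin d → E →L[F] n → n → F},
    (∀ i, HasStrictFDerivAt (f i) (f' i) 0) → (∀ i, Matrix.of (f i 0) = 1) →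
    HasStrictFDerivAt (fun x => Matrix.of.symm (List.ofFn fun i => Matrix.of (f i x)).prod)
      (∑ i, f' i) 0
  | 0, _, _, _, _ => by
    simpa using hasStrictFDerivAt_const (𝕜 := F) (Matrix.of.symm (1 : Matrix n n F)) (0 : E)
  | d + 1, f, f', h, h0 => by
    have h1 := strict_prod (f := fun i => f i.succ) (f' := fun i => f' i.succ)
      (fun i => h i.succ) fun i => h0 i.succ
    have h2 := strict_mul (h 0) h1 (h0 0) (by simp [h0])
    rw [Fin.sum_univ_succ]
    simpa only [List.ofFn_succ, List.prod_cons, Equiv.apply_symm_apply] using h2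

theorem exists_approx {G : Type} [NormedAddCommGroup G] [NormedSpace F G] {f : E → G}
    {f' : E →L[F] G} {a : E} (hf : HasStrictFDerivAt f f' a) {c : ℝ} (hc : 0 < c) :
    ∃ U ∈ 𝓝 a, ∀ x ∈ U, ∀ y ∈ U, ‖f x - f y - f' (x - y)‖ ≤ c * ‖x - y‖ := by
  have h1 := hf.isLittleO.def hc
  rw [nhds_prod_eq, Filter.Eventually, mem_prod_same_iff] at h1
  obtain ⟨U, hU, h1⟩ := h1
  exact ⟨U, hU, fun x hx y hy => h1 (Set.mk_mem_prod hx hy)⟩

end Opn

end Vale.Agent.P011Z
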